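import Vale.Agent.P342.Defs

/-!
P342, module C3 (visibility): the point of the graph given by the field does not see the right
(resp. left) question and the projection of a block `b` with `t b = m` (resp. `t b = 0`).
-/

namespace Vale.Agent.P342

open Vale.Agent.Lib.PCP Finset

variable {l r : ℕ}

namespace Vis

theorem hi_le {m : ℕ} {t : Fin l → ℕ} (ht : ∀ b, t b ≤ m) (U : Finset (Fin l)) :
    hi m t U ≤ m := by
  unfold hi
  split_ifs with h
  · obtain ⟨b, hb⟩ := h
    exact (Finset.inf'_le t hb).trans (ht b)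
  · exact le_rfl

theorem cf_top {m : ℕ} {t : Fin l → ℕ} (ht : ∀ b, t b ≤ m) {U : Finset (Fin l)} {b : Fin l}
    (hb : t b = m) (hU : b ∉ U) : cf m t U = 0 := by
  have h1 := hi_le ht U
  have h2 : m ≤ lo t U := by
    unfold lo
    rw [← hb]
    exact Finset.le_sup (f := t) (by simpa using hU)
  have h3 : wt m t U = 0 := by unfold wt; omega
  simp [cf, h3]

/-- the question tuple at a block which is not seen -/
theorem vert_congr {e e' : Fin l → Ed r} {S : Finset (Fin l)} {b : Fin l}
    (hee : ∀ b', b' ≠ b → e b' = e' b')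
    (hb : (b ∈ S ∧ (e b).1 = (e' b).1) ∨ (b ∉ S ∧ (e b).2.1 = (e' b).2.1)) :
    vert e S = vert e' S := by
  funext x
  by_cases hx : x = b
  · subst hx
    rcases hb with ⟨hS, h⟩ | ⟨hS, h⟩
    · simp [vert, hS, h]
    · simp [vert, hS, h]
  · simp [vert, hee x hx]

/-- the projection does not see the block `b` if it is not projected -/
theorem proj_congr {e e' : Fin l → Ed r} {S U : Finset (Fin l)} {b : Fin l}
    (hee : ∀ b', b' ≠ b → e b' = e' b') (hb : b ∉ S ∨ b ∈ U) (u : Fin l → Fin r) :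
    proj e S U u = proj e' S U u := by
  funext x
  by_cases hx : x = b
  · subst hx
    have : ¬ (x ∈ S ∧ x ∉ U) := fun h => hb.elim (fun h' => h' h.1) (fun h' => h.2 h')
    simp [proj, this]
  · simp [proj, hee x hx]

end Vis

/-- MODULE C (visibility). -/
theorem pt_visible {m Q : ℕ} {t : Fin l → ℕ} (ht : ∀ b, t b ≤ m)
    {U0 : Finset (Fin l)} (hc : cf m t U0 = m) (hm : 0 < m)
    {e e' : Fin l → Ed r} {b : Fin l} (hee : ∀ b', b' ≠ b → e b' = e' b')
    (hb : (t b = m ∧ (e b).1 = (e' b).1) ∨ (t b = 0 ∧ (e b).2.1 = (e' b).2.1)) :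
    pt m Q t U0 e = pt m Q t U0 e' := by
  have hv : vert e (supp t) = vert e' (supp t) := by
    refine Vis.vert_congr hee ?_
    rcases hb with ⟨h, h'⟩ | ⟨h, h'⟩
    · exact Or.inl ⟨by simp [supp]; omega, h'⟩
    · exact Or.inr ⟨by simp [supp, h], h'⟩
  funext ω
  have hf : ∀ u : Fin l → Fin r, fld m Q t U0 e ω u = fld m Q t U0 e' ω u := by
    intro u
    unfold fld
    refine Finset.sum_congr rfl fun U _ => ?_
    rcases hb with ⟨h, -⟩ | ⟨h, -⟩
    · by_cases hU : b ∈ U.1
      · rw [Vis.proj_congr hee (Or.inr hU)]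
      · have h0 : cf m t U.1 = 0 := Vis.cf_top ht h hU
        have hne : U.1 ≠ U0 := fun h' => by rw [h', hc] at h0; omega
        simp [hne, h0]
    · rw [Vis.proj_congr hee (Or.inl (by simp [supp, h]))]
  unfold pt
  rw [hv]
  refine Prod.ext rfl ?_
  funext u
  simp only [hf]

end Vale.Agent.P342
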